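import Vale.Agent.N271.Out
import Vale.Agent.P271L61.F

/-!
# `K_X + mL + A`: from divisors to invertible sheaves
-/

open CategoryTheory Opposite AlgebraicGeometry TopologicalSpace Order

noncomputable section

namespace Vale.Agent.N271

open Vale.Agent.P299.G Vale.Agent.P299 Vale.Agent.P271 Vale.Agent.P271L

theorem free_S (hub : Sch.HubFujita) (V : Q.Var) (κ L A : Q.Div V.X)
    (hκ : S.IsCanonical (X := S.pv V) κ) (hL : S.IsAmple (X := S.pv V) L)
    (hA : S.IsAmple (X := S.pv V) A) (m : ℕ) (hm : V.dim + 1 ≤ m) (x : V.X) :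
    ∃ s : V.K, S.IsSec (X := S.pv V) (κ + m • L + A) s ∧
      S.GenAt (X := S.pv V) (κ + m • L + A) s x := by
  obtain ⟨s, hs, hsx⟩ := free2 hub ((S.isAmple_iff L).2 hL) ((S.isAmple_iff A).2 hA)
    ((S.isCanonical_iff κ).2 hκ) hm x
  exact ⟨s, (S.mem_H0_iff _ s).1 hs, (S.genAt_iff _ s x).1 hsx⟩

theorem free_S' (hub : Sch.HubFujita) (X : S.PVar) (κ L A : S.Div X) (hκ : S.IsCanonical κ)
    (hL : S.IsAmple L) (hA : S.IsAmple A) (m : ℕ) (hm : S.dim X + 1 ≤ m) (x : S.Pt X.X) :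
    ∃ s : S.K X, S.IsSec (κ + m • L + A) s ∧ S.GenAt (κ + m • L + A) s x :=
  free_S hub (S.qv { X with ample := ⟨L, hL⟩ }) κ L A hκ hL hA m hm x

theorem free_div (hub : Sch.HubFujita) {n : ℕ} (V : Fuj.Var n) {κ L A : V.Div}
    (hκ : Fuj.Var.IsCanonical κ) (hL : Fuj.Var.IsAmple L) (hA : Fuj.Var.IsAmple A) {m : ℕ}
    (hm : n + 1 ≤ m) : Fuj.Var.IsGloballyGenerated (κ + m • L + A) := by
  intro x
  have hdim : S.dim V.toS = n := Sch.dim_eq_of_smooth' ((Fuj.Var.isAmple_iff L).1 hL) V.smooth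
  obtain ⟨s, hs, hsx⟩ := free_S' hub V.toS κ L A ((Fuj.Var.isCanonical_iff hL κ).1 hκ)
    ((Fuj.Var.isAmple_iff L).1 hL) ((Fuj.Var.isAmple_iff A).1 hA) m (by rw [hdim]; exact hm) x
  exact ⟨s, (Fuj.Var.isSection_iff _ _).2 hs, (Fuj.Var.generatesAt_iff _ _ _).2 hsx⟩

theorem exists_div {n : ℕ} (V : Fuj.Var n) [IsNoetherian V.X]
    (hreg : ∀ y : V.X, coheight y = 1 → IsDiscreteValuationRing (V.X.presheaf.stalk y))
    (hufd : ∀ x : V.X, UniqueFactorizationMonoid (V.X.presheaf.stalk x)) {L : V.X.Modules}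
    (hL : IsLineBundle L) (hA : IsAmple L) :
    ∃ (T : Ev (pv L) V.X.functionField) (u : V.X → V.X.functionField) (D : V.Div),
      (∀ x, Fr T x (u x)) ∧ Fuj.Var.IsAmple D ∧ ∀ (k : ℕ) (y : V.X) (hy : coheight y = 1),
        (k • D) (pd V y hy) = -Scheme.ord (u y ^ k) y := by
  obtain ⟨T, hT⟩ := exists_ev_of_isLineBundle hL
  choose u hu using hT
  let D : V.Div := Finsupp.ofSupportFinite (fun y => -Scheme.ord (X := V.X) (u y.1) y.1)
    (((finite_ord hu).preimage Subtype.val_injective.injOn).subset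
      fun y hy => ⟨y.2, fun h => hy (neg_eq_zero.2 h)⟩)
  have hD : ∀ (k : ℕ) (y : V.X) (hy : coheight y = 1),
      (k • D) (pd V y hy) = -Scheme.ord (u y ^ k) y := by
    intro k y hy
    rw [Q.ord_pow (hu y).1, ← mul_neg, ← nsmul_eq_mul]
    rfl
  refine ⟨T, u, D, hu, fun z => ?_, hD⟩
  obtain ⟨k, s, U, hk, hU, hz, h⟩ := hA z
  obtain ⟨T1, h2⟩ := exists_ev_pow T k
  have h3 : ∀ y, Fr T1 y (u y ^ k) := fun y => h2 y _ (hu y)
  exact ⟨k, T1.θ ⊤ trivial s, U, hk,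
    (isSection_iff V (hD k) _).2 fun h0 y _ => ord_le_sec h3 s h0 y, hU, hz, fun y => (h y).trans
    ((not_vanishesAt_iff h3 hreg hufd s y).trans (generatesAt_iff V (hD k) _ y).symm)⟩

theorem twist_var (hub : Sch.HubFujita) (n : ℕ) (V : Fuj.Var n) (L A : V.X.Modules)
    (hL : IsLineBundle L) (hA : IsLineBundle A) (aL : IsAmple L) (aA : IsAmple A) (m : ℕ)
    (hm : n + 1 ≤ m) : IsLineBundle (tensor (tensor (canonical V.str n) (pow L m)) A) ∧
      IsGloballyGenerated (tensor (tensor (canonical V.str n) (pow L m)) A) := by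
  let _ : Algebra ℂ V.X.functionField := Fuj.Var.instAlgebraK V
  have hf : P297L.Compat (X := V.X) V.str := fun c =>
    (gk_r (X := V.X) (W := ⊤) (W' := ⊤) le_top trivial _).symm
  have hs : SmoothOfRelativeDimension n (Y := Spec (CommRingCat.of ℂ)) V.str := V.smooth
  have : CompactSpace Fuj.SpecC := inferInstanceAs (CompactSpace (Spec (CommRingCat.of ℂ)))
  have : CompactSpace V.X := QuasiCompact.compactSpace_of_compactSpace V.str
  have : IsNoetherian V.X := {}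
  let _ : V.X.Over Q.SpecC := ⟨V.str⟩
  have : Smooth (V.X ↘ Q.SpecC) := SmoothOfRelativeDimension.smooth n V.str
  have hreg : ∀ y : V.X, coheight y = 1 → IsDiscreteValuationRing (V.X.presheaf.stalk y) :=
    (Q.regOne_of_smooth V.X).dvr
  have hufd : ∀ x : V.X, UniqueFactorizationMonoid (V.X.presheaf.stalk x) :=
    Q.ufd_stalk_of_smooth V.X
  obtain ⟨T, u, D, hu, hDA, hD⟩ := exists_div V hreg hufd hL aL
  obtain ⟨T', u', D', hu', hDA', hD'⟩ := exists_div V hreg hufd hA aA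
  obtain ⟨κ, hκ⟩ := Fuj.Var.exists_isCanonical hDA
  have hres := free_div hub V hκ hDA hDA' hm
  obtain ⟨ω, ⟨v, hv⟩, hω⟩ := hκ
  obtain ⟨T0, h0⟩ := P297L.exists_ev_canonical hf ω (v := v) hv
  choose d hd0 hF hd using h0
  have hp : ∀ (w : V.Der) (y : V.X),
      Fuj.Var.IsRegularFieldAt w y ↔ P297L.Pres (X := V.X) w y := fun w y =>
    ⟨fun h a => (h _ ⟨a, rfl⟩).imp fun _ h => h.symm,
      fun h _ ⟨a, ha⟩ => ha ▸ (h a).imp fun _ h => h.symm⟩
  let o : V.X → V.X.functionField := fun y => ω (d y)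
  have ho : ∀ y, o y ≠ 0 := hd0
  have hκy : ∀ (y : V.X) (hy : coheight y = 1), κ (pd V y hy) = Scheme.ord (o y) y := by
    intro y hy
    refine le_antisymm ((hω (pd V y hy)).2 ⟨d y,
      fun i => (hp _ _).2 ((hd y y specializes_rfl).1 i), hd0 y, rfl⟩) ?_
    obtain ⟨w, hw, hw0, h5⟩ := (hω (pd V y hy)).1
    obtain ⟨c, hc⟩ := (hd y y specializes_rfl).2 w fun i => (hp _ _).1 (hw i)
    have h6 : toK y c * o y ≠ 0 := fun h => hw0 (hc.trans h)
    have h7 : κ (pd V y hy) = Scheme.ord (toK y c * o y) y :=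
      h5.symm.trans (congrArg (fun t => Scheme.ord (X := V.X) t y) hc)
    rw [h7, Scheme.ord_mul (left_ne_zero_of_mul h6) (ho y)]
    exact le_add_of_nonneg_left (ord_toK_nonneg c)
  obtain ⟨T1, h2⟩ := exists_ev_pow T m
  obtain ⟨T2, h3⟩ := exists_ev_tensor T0 T1
  obtain ⟨T3, h3'⟩ := exists_ev_tensor T2 T'
  have h4 : ∀ y, Fr T3 y ((o y)⁻¹ * u y ^ m * u' y) := fun y =>
    h3' y _ _ (h3 y _ _ (hF y) (h2 y _ (hu y))) (hu' y)
  have h5 : ∀ (y : V.X) (hy : coheight y = 1), (κ + m • D + D') (pd V y hy) =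
      -Scheme.ord ((o y)⁻¹ * u y ^ m * u' y) y := by
    intro y hy
    have h6 := hD' 1 y hy
    rw [one_smul, pow_one] at h6
    rw [Finsupp.add_apply, Finsupp.add_apply, hD, hκy, h6, Scheme.ord_mul (mul_ne_zero
      (inv_ne_zero (ho y)) (pow_ne_zero m (hu y).1)) (hu' y).1, Scheme.ord_mul (inv_ne_zero (ho y))
      (pow_ne_zero m (hu y).1), Q.ord_inv (ho y), neg_add, neg_add, neg_neg]
  refine ⟨isLineBundle_of_fr T3 fun y => ⟨_, h4 y⟩, fun x => ?_⟩
  obtain ⟨g, hg, hgx⟩ := hres x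
  have h6 := (generatesAt_iff V h5 g x).1 hgx
  obtain ⟨s, hs⟩ := exists_sec h4 hreg hufd (g := g) h6.1 ((isSection_iff V h5 g).1 hg h6.1)
  refine ⟨s, (not_vanishesAt_iff h4 hreg hufd s x).2 ?_⟩
  rw [hs]
  exact h6

theorem twist_of_hub (hub : Sch.HubFujita) (n : ℕ) (X : Scheme.{0})
    (f : X ⟶ Spec (CommRingCat.of ℂ)) [hs : SmoothOfRelativeDimension n f] [hp : IsProper f]
    [ConnectedSpace X] (L A : X.Modules) (hL : IsLineBundle L) (hA : IsLineBundle A)
    (aL : IsAmple L) (aA : IsAmple A) (m : ℕ) (hm : n + 1 ≤ m) :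
    IsLineBundle (tensor (tensor (canonical f n) (pow L m)) A) ∧
      IsGloballyGenerated (tensor (tensor (canonical f n) (pow L m)) A) :=
  have := SmoothOfRelativeDimension.smooth n f
  twist_var hub n
    { X := X, str := f, int := P297G93.isIntegral_of_smooth f, smooth := hs, proper := hp }
    L A hL hA aL aA m hm

end Vale.Agent.N271
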