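import Vale.Agent.N271.Ring

/-!
# The local rings of the section ring of two ample divisors
-/

open AlgebraicGeometry Order Polynomial IsLocalRing

noncomputable section

namespace Vale.Agent.N271

open Vale.Agent.P271.Sch Vale.Agent.P299 Vale.Agent.P299.Q Vale.Agent.P299.G

variable {V : Q.Var} {L A : Q.Div V.X}

/-- the local ring at `p` -/
abbrev loc2 (p : Ideal (R2 L A)) [p.IsPrime] : Subring (F2 V) := locF (al2 L A) al2_injective p

theorem mono_mem_loc (hL : IsAmple L) (hA : IsAmple A) {p : Ideal (R2 L A)} [p.IsPrime] {x : V.X}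
    (hp : Lies p x) {a b : ℕ} {c : V.K} (hc : ∀ z : V.X, coheight z = 1 → z ⤳ x → c ≠ 0 →
      0 ≤ Scheme.ord c z + coef (a • L + b • A) z) : jK V c * T1 V ^ a * T2 V ^ b ∈ loc2 p := by
  rw [mem_range_jLoc]
  rcases hp with hp | hp
  · obtain ⟨m, -, s, hs, hsx, hprod⟩ := exists_denominator hL _ hc
    rw [add_right_comm, ← add_smul] at hprod
    refine ⟨mono2 hprod, mono2 (secL hs), hp m s hs hsx, ?_⟩
    rw [al2_mono, al2_mono, map_mul]
    ring
  · obtain ⟨m, -, s, hs, hsx, hprod⟩ := exists_denominator hA _ hc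
    rw [add_assoc, ← add_smul] at hprod
    refine ⟨mono2 hprod, mono2 (secA hs), hp m s hs hsx, ?_⟩
    rw [al2_mono, al2_mono, map_mul]
    ring

variable {x : V.X} {g g' : V.K}

theorem chart_mem_loc (hL : IsAmple L) (hA : IsAmple A) {p : Ideal (R2 L A)} [p.IsPrime]
    (hp : Lies p x) (hg : GenAt L g x) (hg' : GenAt A g' x) {o : V.K} (ho : o ∈ locRing V x)
    (a b : ℕ) : jK V (o * (g ^ a * g' ^ b)) * T1 V ^ a * T2 V ^ b ∈ loc2 p := by
  refine mono_mem_loc hL hA hp fun z hz hzx h0 => ?_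
  have h1 := genAt_mul (genAt_pow hg a) (genAt_pow hg' b)
  rw [Scheme.ord_mul (left_ne_zero_of_mul h0) h1.1, add_assoc, h1.2 z hz hzx, add_zero]
  exact ord_nonneg_of_locRing (locRing_le hzx ho)

theorem cf_div_mem (hg : GenAt L g x) (hg' : GenAt A g' x) {a b : ℕ} {c : V.K}
    (hc : c ∈ H0 (coef (a • L + b • A))) : c / (g ^ a * g' ^ b) ∈ locRing V x := by
  have h := coeff_div_mem (m := 1) (genAt_mul (genAt_pow hg a) (genAt_pow hg' b))
    (by rwa [one_smul] : c ∈ H0 (coef (1 • (a • L + b • A))))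
  rwa [pow_one] at h

variable (x g g') in
/-- The embedding of `O_x[τ₁, τ₂]`. -/
def psi2 : Polynomial (Polynomial (V.X.presheaf.stalk x)) →+* Polynomial (Polynomial V.K) :=
  (Polynomial.compRingHom (C (C g') * Polynomial.X)).comp (Polynomial.mapRingHom (psi x g))

theorem coeff_psi2 (b : Polynomial (Polynomial (V.X.presheaf.stalk x))) (k i : ℕ) :
    ((psi2 x g g' b).coeff k).coeff i = toK x ((b.coeff k).coeff i) * (g ^ i * g' ^ k) := by
  change (((b.map (psi x g)).comp (C (C g') * Polynomial.X)).coeff k).coeff i = _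
  rw [Polynomial.comp_C_mul_X_coeff, Polynomial.coeff_map, ← C_pow, coeff_mul_C, coeff_psi,
    mul_assoc]

theorem psi2_injective (hg : g ≠ 0) (hg' : g' ≠ 0) : Function.Injective (psi2 x g g') := by
  intro b b' h
  ext k i
  have h1 := congrArg (fun f => (f.coeff k).coeff i) h
  simp only [coeff_psi2] at h1
  exact toK_injective x (mul_right_cancel₀ (mul_ne_zero (pow_ne_zero _ hg) (pow_ne_zero _ hg')) h1)

theorem psi2_mono (k i : ℕ) (o : V.X.presheaf.stalk x) : psi2 x g g' (monomial k (monomial i o)) =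
    monomial k (monomial i (toK x o * (g ^ i * g' ^ k))) := by
  ext k' i'
  rw [coeff_psi2, coeff_monomial, coeff_monomial]
  split_ifs with h
  · rw [coeff_monomial, coeff_monomial]
    split_ifs with h'
    · rw [h, h']
    · rw [map_zero, zero_mul]
  · rw [coeff_zero, coeff_zero, map_zero, zero_mul]

theorem regular_le2 (hL : IsAmple L) (hA : IsAmple A) {p : Ideal (R2 L A)} [p.IsPrime]
    (hp : Lies p x) : IsRegularLocalRing (Localization.AtPrime p) ∧
      ringKrullDim (Localization.AtPrime p) ≤ (V.dim + 1 + 1 : ℕ) := by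
  have := ufd V x
  obtain ⟨g, hg⟩ := exists_genAt L x
  obtain ⟨g', hg'⟩ := exists_genAt A x
  have hreg := isRegularRing_stalk V x
  obtain ⟨-, -, -, -, -, -, hdim⟩ := exists_frame_dim V x
  let β : Polynomial (Polynomial (V.X.presheaf.stalk x)) →+* F2 V :=
    (i0 V : Polynomial (Polynomial V.K) →+* F2 V).comp (psi2 x g g')
  have hβ : ∀ k i o, β (monomial k (monomial i o)) =
      jK V (toK x o * (g ^ i * g' ^ k)) * T1 V ^ i * T2 V ^ k := fun k i o =>
    (congrArg (i0 V) (psi2_mono k i o)).trans (i0_mono _ _ _)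
  obtain ⟨q, hq, ⟨e⟩⟩ := sandwich (al2 L A) al2_injective p β
    (i0_injective.comp (psi2_injective hg.1 hg'.1))
    (fun a => mem_of_mo (i2 V) β.range (f := a.1) fun i k _ => by
      obtain ⟨o, ho⟩ := mem_locRing.1 (cf_div_mem hg hg' (a.2 i k))
      refine ⟨monomial k (monomial i o), ?_⟩
      rw [hβ, i2_mo, ho, div_mul_cancel₀ _ (mul_ne_zero (pow_ne_zero _ hg.1) (pow_ne_zero _ hg'.1))])
    (fun b => by
      rw [b.as_sum_support, map_sum]
      refine sum_mem fun k _ => ?_
      rw [(b.coeff k).as_sum_support, map_sum, map_sum]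
      refine sum_mem fun i _ => ?_
      rw [hβ]
      exact chart_mem_loc hL hA hp hg hg' ⟨_, rfl⟩ i k)
  have h1 : IsRegularLocalRing (Localization.AtPrime q) := inferInstance
  refine ⟨IsRegularLocalRing.of_ringEquiv e.symm, ?_⟩
  rw [ringKrullDim_eq_of_ringEquiv e, IsLocalization.AtPrime.ringKrullDim_eq_height q]
  refine (Ideal.height_le_ringKrullDim_of_ne_top hq.ne_top).trans ?_
  rw [Polynomial.ringKrullDim_of_isNoetherianRing, Polynomial.ringKrullDim_of_isNoetherianRing]
  push_cast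
  gcongr

/-- The extension of a frame of `K(V)(T₁)` to `K(V)(T₁)(T₂)`. -/
structure Ext2 (g' : V.K) {n : ℕ} (W' : Fin n → Derivation ℂ (KT V) (KT V))
    (W : Fin (n + 1) → Derivation ℂ (F2 V) (F2 V)) : Prop where
  zero_j : ∀ a, W 0 (j1 V a) = 0
  zero_T : W 0 (T2 V) = (jK V g')⁻¹
  succ_j : ∀ i a, W (Fin.succ i) (j1 V a) = j1 V (W' i a)
  succ_T : ∀ i, W (Fin.succ i) (T2 V) = -(j1 V (W' i (iT V (C g'))) / jK V g' * T2 V)

theorem exists_ext2 (g' : V.K) {n : ℕ} (W' : Fin n → Derivation ℂ (KT V) (KT V)) :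
    ∃ W, Ext2 g' W' W := by
  obtain ⟨W₀, h1, h2⟩ := exists_der (k := ℂ) (K := KT V) (F := F2 V) 0 (jK V g')⁻¹
  choose W h3 h4 using fun i => exists_der (k := ℂ) (K := KT V) (F := F2 V) (W' i)
    (-(j1 V (W' i (iT V (C g'))) / jK V g' * T2 V))
  refine ⟨Fin.cons W₀ W, ⟨fun a => ?_, h2, fun i a => h3 i a, fun i => h4 i⟩⟩
  refine (h1 a).trans ?_
  rw [Derivation.zero_apply, C_0, map_zero]

theorem jK_eq (c : V.K) : jK V c = j1 V (iT V (C c)) := rfl

theorem jK_ne_zero {c : V.K} (h : c ≠ 0) : jK V c ≠ 0 := (_root_.map_ne_zero _).2 h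

/-- the coordinates -/
def coords2 (g' : V.K) {n : ℕ} (t : Fin n → KT V) : Fin (n + 1) → F2 V :=
  Fin.cons (jK V g' * T2 V) fun l => j1 V (t l)

section

variable {n : ℕ} {W' : Fin n → Derivation ℂ (KT V) (KT V)}
  {W : Fin (n + 1) → Derivation ℂ (F2 V) (F2 V)}

theorem Ext2.zero_tau (h : Ext2 g' W' W) (c : V.K) : W 0 (jK V c * T2 V) = jK V (c / g') := by
  rw [Derivation.leibniz, jK_eq, h.zero_j, h.zero_T, smul_zero, add_zero, smul_eq_mul, map_div₀,
    div_eq_mul_inv, jK_eq c]

theorem Ext2.succ_tau (h : Ext2 g' W' W) (hg : g' ≠ 0) (i : Fin n) :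
    W i.succ (jK V g' * T2 V) = 0 := by
  have h0 := jK_ne_zero hg
  rw [Derivation.leibniz, h.succ_T, jK_eq g', h.succ_j, ← jK_eq, smul_eq_mul, smul_eq_mul]
  field_simp
  ring

theorem Ext2.dual (h : Ext2 g' W' W) (hg : g' ≠ 0) {t : Fin n → KT V}
    (ht : ∀ i j, W' i (t j) = if i = j then 1 else 0) (i j : Fin (n + 1)) :
    W i (coords2 g' t j) = if i = j then 1 else 0 := by
  induction i using Fin.cases with
  | zero =>
    induction j using Fin.cases with
    | zero => rw [coords2, Fin.cons_zero, h.zero_tau, div_self hg, map_one, if_pos rfl]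
    | succ j => rw [coords2, Fin.cons_succ, h.zero_j, if_neg (Fin.succ_ne_zero j).symm]
  | succ i =>
    induction j using Fin.cases with
    | zero => rw [coords2, Fin.cons_zero, h.succ_tau hg, if_neg (Fin.succ_ne_zero i)]
    | succ j =>
      rw [coords2, Fin.cons_succ, h.succ_j, ht]
      by_cases hij : i = j
      · rw [if_pos hij, if_pos (congrArg _ hij), map_one]
      · rw [if_neg hij, if_neg (fun h => hij (Fin.succ_injective _ h)), map_zero]

theorem Ext2.expand (h : Ext2 g' W' W) (hg : g' ≠ 0) {t : Fin n → KT V}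
    (ht : ∀ i j, W' i (t j) = if i = j then 1 else 0)
    (hv : ∀ v : Derivation ℂ (KT V) (KT V), (∀ i, v (t i) = 0) → v = 0)
    (E : Derivation ℂ (F2 V) (F2 V)) (f : F2 V) : E f = ∑ l, E (coords2 g' t l) * W l f := by
  have hsum : ∀ (s : Finset (Fin (n + 1))) (f : F2 V),
      (∑ l ∈ s, E (coords2 g' t l) • W l) f = ∑ l ∈ s, E (coords2 g' t l) * W l f := by
    classical
    intro s f
    induction s using Finset.induction_on with
    | empty => simp
    | insert a s ha ih =>
      rw [Finset.sum_insert ha, Finset.sum_insert ha, Derivation.add_apply, ih,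
        Derivation.smul_apply, smul_eq_mul]
  set E' : Derivation ℂ (F2 V) (F2 V) := E - ∑ l, E (coords2 g' t l) • W l with hE'
  have hcoords : ∀ j, E' (coords2 g' t j) = 0 := by
    intro j
    rw [hE', Derivation.sub_apply, hsum]
    simp only [h.dual hg ht]
    simp
  have htau : E' (jK V g' * T2 V) = 0 := hcoords 0
  have hC : ∀ a, E' (j1 V a) = 0 := by
    refine der_eq_zero_of_coords (k := ℂ) hv (j1 V) (fun a => E' (j1 V a))
      (fun a b => ?_) (fun a b => ?_) (fun r => ?_) (fun i => hcoords i.succ)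
    · rw [map_add, map_add]
    · rw [map_mul, Derivation.leibniz]
      rfl
    · have : j1 V (algebraMap ℂ (KT V) r) = algebraMap ℂ (F2 V) r :=
        (IsScalarTower.algebraMap_apply ℂ (Polynomial (KT V)) (F2 V) r).symm
      rw [this, Derivation.map_algebraMap]
  have hX : E' (T2 V) = 0 := by
    rw [Derivation.leibniz, jK_eq, hC, smul_zero, add_zero, smul_eq_mul] at htau
    exact (mul_eq_zero.1 htau).resolve_left (jK_ne_zero hg)
  have h0 : E' = 0 := der_eq_zero (K := KT V) hC hX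
  have h1 : E' f = 0 := by rw [h0, Derivation.zero_apply]
  rw [hE', Derivation.sub_apply, hsum, sub_eq_zero] at h1
  exact h1

end

theorem j1_tau (g : V.K) : j1 V (tau g) = jK V g * T1 V := by
  rw [tau_eq, map_mul]
  rfl

section

variable (hL : IsAmple L) (hA : IsAmple A) {p : Ideal (R2 L A)} [p.IsPrime] (hp : Lies p x)
  (hg : GenAt L g x) (hg' : GenAt A g' x)

include hL hA hp hg hg'

theorem jK_mem {o : V.K} (ho : o ∈ locRing V x) : jK V o ∈ loc2 p := by
  simpa using chart_mem_loc hL hA hp hg hg' ho 0 0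

theorem tau1_mem : jK V g * T1 V ∈ loc2 p := by
  simpa using chart_mem_loc hL hA hp hg hg' (one_mem _) 1 0

theorem tau2_mem : jK V g' * T2 V ∈ loc2 p := by
  simpa using chart_mem_loc hL hA hp hg hg' (one_mem _) 0 1

theorem der_mem2 (E : Derivation ℂ (F2 V) (F2 V)) (h0 : ∀ o ∈ locRing V x, E (jK V o) ∈ loc2 p)
    (h1 : E (jK V g * T1 V) ∈ loc2 p) (h2 : E (jK V g' * T2 V) ∈ loc2 p) {f : F2 V}
    (hf : f ∈ loc2 p) : E f ∈ loc2 p := by
  refine der_mem (al2 L A) al2_injective p E (fun a => ?_) hf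
  refine mem_of_mo (E.toLinearMap.comp (i2 V).toLinearMap) (loc2 p) (f := a.1) fun i k _ => ?_
  have ho := cf_div_mem hg hg' (a.2 i k)
  have e : i2 V (mo i k (cf a.1 i k)) = jK V (cf a.1 i k / (g ^ i * g' ^ k)) *
      ((jK V g * T1 V) ^ i * (jK V g' * T2 V) ^ k) := by
    have := jK_ne_zero hg.1
    have := jK_ne_zero hg'.1
    rw [i2_mo, map_div₀, map_mul, map_pow, map_pow, mul_pow, mul_pow]
    field_simp
  have m0 := jK_mem hL hA hp hg hg' ho
  have m1 := tau1_mem hL hA hp hg hg'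
  have m2 := tau2_mem hL hA hp hg hg'
  change E (i2 V (mo i k (cf a.1 i k))) ∈ _
  rw [e, Derivation.leibniz, Derivation.leibniz, Derivation.leibniz_pow, Derivation.leibniz_pow]
  simp only [smul_eq_mul, nsmul_eq_mul]
  exact add_mem (mul_mem m0 (add_mem
    (mul_mem (pow_mem m1 _) (mul_mem (natCast_mem _ _) (mul_mem (pow_mem m2 _) h2)))
    (mul_mem (pow_mem m2 _) (mul_mem (natCast_mem _ _) (mul_mem (pow_mem m1 _) h1)))))
    (mul_mem (mul_mem (pow_mem m1 _) (pow_mem m2 _)) (h0 _ ho))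

variable {n : ℕ} {w : Fin n → V.Der} {W' : Fin (n + 1) → Derivation ℂ (KT V) (KT V)}
  {W : Fin (n + 1 + 1) → Derivation ℂ (F2 V) (F2 V)}

theorem Ext2.regular (h : Ext2 g' W' W) (h' : Ext g w W') (hw : ∀ i, RegDer x (w i))
    (i : Fin (n + 1 + 1)) {f : F2 V} (hf : f ∈ loc2 p) : W i f ∈ loc2 p := by
  refine der_mem2 hL hA hp hg hg' (W i) (fun o ho => ?_) ?_ ?_ hf
  · induction i using Fin.cases with
    | zero =>
      rw [jK_eq, h.zero_j]
      exact zero_mem _
    | succ i =>
      rw [jK_eq, h.succ_j]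
      induction i using Fin.cases with
      | zero =>
        rw [h'.zero_C, map_zero]
        exact zero_mem _
      | succ i =>
        rw [h'.succ_C]
        exact jK_mem hL hA hp hg hg' (regDer_iff_locRing.1 (hw i) o ho)
  · rw [← j1_tau]
    induction i using Fin.cases with
    | zero =>
      rw [h.zero_j]
      exact zero_mem _
    | succ i =>
      rw [h.succ_j]
      induction i using Fin.cases with
      | zero =>
        rw [h'.zero_tau hg.1, map_one]
        exact one_mem _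
      | succ i =>
        rw [h'.succ_tau hg.1, map_zero]
        exact zero_mem _
  · induction i using Fin.cases with
    | zero =>
      rw [h.zero_tau, div_self hg'.1, map_one]
      exact one_mem _
    | succ i =>
      rw [h.succ_tau hg'.1]
      exact zero_mem _

theorem coords2_mem {t : Fin n → V.K} (ht : ∀ j, t j ∈ locRing V x) (i : Fin (n + 1 + 1)) :
    coords2 g' (coords g t) i ∈ loc2 p := by
  induction i using Fin.cases with
  | zero => exact tau2_mem hL hA hp hg hg'
  | succ i =>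
    induction i using Fin.cases with
    | zero =>
      change j1 V (tau g) ∈ _
      rw [j1_tau]
      exact tau1_mem hL hA hp hg hg'
    | succ i => exact jK_mem hL hA hp hg hg' (ht i)

end

theorem regular_eq2 (hL : IsAmple L) (hA : IsAmple A) {p : Ideal (R2 L A)} [p.IsMaximal]
    (hp : Lies p x) : IsRegularLocalRing (Localization.AtPrime p) ∧
      ringKrullDim (Localization.AtPrime p) = (V.dim + 1 + 1 : ℕ) := by
  have := ufd V x
  have hft := R2_finiteType hL hA
  obtain ⟨g, hg⟩ := exists_genAt L x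
  obtain ⟨g', hg'⟩ := exists_genAt A x
  obtain ⟨hreg, hle⟩ := regular_le2 hL hA hp
  obtain ⟨t, w, h1, h2, h3, h4, -⟩ := exists_frame_dim V x
  obtain ⟨W', hW'⟩ := exists_ext g w
  obtain ⟨W, hW⟩ := exists_ext2 g' W'
  exact ⟨hreg, le_antisymm hle (le_dim (al2 L A) al2_injective p al2_algebraMap W
    (fun i f hf => hW.regular hL hA hp hg hg' hW' h2 i hf) _ (coords2_mem hL hA hp hg hg' h1)
    (hW.dual hg'.1 (hW'.dual hg.1 h3)))⟩

/-- The cone of the projective line bundle `P(L ⊕ A)`. -/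
def cone2 (hL : IsAmple L) (hA : IsAmple A) : GCone (V.dim + 1) where
  R := R2 L A
  A := grade2 L A
  gr := graded2
  finiteType := R2_finiteType hL hA
  zero := grade2_zero
  regular := by
    intro p hp hs
    obtain ⟨x, hx⟩ := exists_lies hL hA p hp hs
    exact regular_eq2 hL hA hx
  free := by
    intro p hp hs
    obtain ⟨x, hx⟩ := exists_lies hL hA p hp hs
    exact hx.free hL hA

theorem exists_quotient2 (hL : IsAmple L) (hA : IsAmple A) (z : F2 V) :
    ∃ a s : R2 L A, s ≠ 0 ∧ z * al2 L A s = al2 L A a := by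
  let φ : FractionRing (R2 L A) →+* F2 V := IsFractionRing.lift (al2_injective (L := L) (A := A))
  have hφ : ∀ a, φ (algebraMap _ _ a) = al2 L A a := fun a => IsFractionRing.lift_algebraMap _ a
  have h := gen_top hL hA φ.fieldRange (fun f => ⟨_, hφ ⟨_, C_mem f⟩⟩) fun f => ⟨_, hφ ⟨_, map_mem f⟩⟩
  obtain ⟨y, rfl⟩ : z ∈ φ.fieldRange := h ▸ Subfield.mem_top z
  obtain ⟨a, s, hs, rfl⟩ := IsFractionRing.div_surjective (A := R2 L A) y
  have h0 := nonZeroDivisors.ne_zero hs
  refine ⟨a, s, h0, ?_⟩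
  rw [map_div₀, hφ, hφ, div_mul_cancel₀ _ ((map_ne_zero_iff _ al2_injective).2 h0)]

variable (L A) in
/-- the restriction to `T₂ = 0` -/
def res : R2 L A →ₐ[ℂ] secRing L where
  toFun f := ⟨(toP V f.1).coeff 0, fun a => by
    have h := f.2 a 0
    rwa [zero_smul, add_zero] at h⟩
  map_one' := Subtype.ext (coeff_one_zero (R := Polynomial V.K))
  map_mul' f g := Subtype.ext ((congrArg (coeff · 0) (map_mul (toP V) f.1 g.1)).trans
    (mul_coeff_zero _ _))
  map_zero' := rfl
  map_add' f g := Subtype.ext ((congrArg (coeff · 0) (map_add (toP V) f.1 g.1)).trans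
    (coeff_add _ _ _))
  commutes' c := Subtype.ext (coeff_C_zero (a := algebraMap ℂ (Polynomial V.K) c))

variable (A) in
/-- the point over `x` -/
def pt2 (hx : IsClosed {x}) (hg : GenAt L g x) : R2 L A →ₐ[ℂ] ℂ := (pt hx hg).comp (res L A)

instance pt2_prime (hx : IsClosed {x}) (hg : GenAt L g x) : (RingHom.ker (pt2 A hx hg)).IsPrime :=
  RingHom.ker_isPrime _

theorem res_mono {m : ℕ} {u : V.K} (hu : u ∈ H0 (coef (m • L))) :
    res L A (mono2 (secL hu)) = mono L hu := by
  apply Subtype.ext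
  change (toP V (mo m 0 u)).coeff 0 = monomial m u
  rw [toP_mo, coeff_monomial_same]

theorem lies_pt2 (hx : IsClosed {x}) (hg : GenAt L g x) : Lies (RingHom.ker (pt2 A hx hg)) x :=
  Or.inl fun m u hu h h' => liesOver_pt hx hg m u hu h (res_mono (A := A) hu ▸ h')

theorem nv_pt2 (hL : IsAmple L) (hA : IsAmple A) (hx : IsClosed {x}) (hg : GenAt L g x) :
    GCone.NV (C := cone2 hL hA) (pt2 A hx hg) := by
  obtain ⟨m, hm, u, hu, hux⟩ := exists_gen hL x
  exact ⟨m, hm, mono2 (secL hu), mono2_mem (secL hu), fun h' =>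
    liesOver_pt hx hg m u hu hux (res_mono (A := A) hu ▸ h')⟩

end Vale.Agent.N271
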