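import Vale.Agent.N271.Loc

/-!
# From the homogeneous form on the cone of `P(L ⊕ A)` to the section of `K_X + mL + A`
-/

open AlgebraicGeometry Order Polynomial IsLocalRing

noncomputable section

namespace Vale.Agent.N271

open Vale.Agent.P271.Sch Vale.Agent.P299 Vale.Agent.P299.Q Vale.Agent.P299.G

variable {V : Q.Var} {L A : Q.Div V.X}

/-- `y₀` is the restriction of `y` to `T₂ = 0` -/
def Res (y : F2 V) (y₀ : KT V) : Prop := ∃ a s : Polynomial (Polynomial V.K), s.coeff 0 ≠ 0 ∧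
  y * i0 V s = i0 V a ∧ y₀ * iT V (s.coeff 0) = iT V (a.coeff 0)

theorem iT_ne_zero {f : Polynomial V.K} (h : f ≠ 0) : iT V f ≠ 0 :=
  (map_ne_zero_iff _ (iT_injective V)).2 h

theorem Res.mul {y y' : F2 V} {y₀ y₀' : KT V} (h : Res y y₀) (h' : Res y' y₀') :
    Res (y * y') (y₀ * y₀') := by
  obtain ⟨a, s, hs, h1, h2⟩ := h
  obtain ⟨a', s', hs', h1', h2'⟩ := h'
  refine ⟨a * a', s * s', ?_, ?_, ?_⟩
  · rw [mul_coeff_zero]
    exact mul_ne_zero hs hs'
  · rw [map_mul, map_mul, ← h1, ← h1']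
    ring
  · rw [mul_coeff_zero, mul_coeff_zero, map_mul, map_mul, ← h2, ← h2']
    ring

theorem Res.unique {y : F2 V} {y₀ y₁ : KT V} (h : Res y y₀) (h' : Res y y₁) : y₀ = y₁ := by
  obtain ⟨a, s, hs, h1, h2⟩ := h
  obtain ⟨a', s', hs', h1', h2'⟩ := h'
  have e : a * s' = a' * s := i0_injective (by
    rw [map_mul, map_mul, ← h1, ← h1']
    ring)
  have e2 := congrArg (fun f => iT V (f.coeff 0)) e
  simp only [mul_coeff_zero, map_mul, ← h2, ← h2'] at e2
  refine mul_right_cancel₀ (mul_ne_zero (iT_ne_zero hs) (iT_ne_zero hs')) ?_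
  linear_combination e2

theorem res_jK (c : V.K) : Res (jK V c) (iT V (C c)) :=
  ⟨C (C c), 1, by simp, by rw [map_one, mul_one, i0_C, jK_eq], by simp⟩

theorem exists_res {x : V.X} {g : V.K} (hx : IsClosed {x}) (hg : GenAt L g x) {y : F2 V}
    (hy : y ∈ loc2 (RingHom.ker (pt2 A hx hg))) :
    ∃ y₀ ∈ locF (alpha L) (alpha_injective L) (ptI hx hg), Res y y₀ := by
  obtain ⟨a, s, hs, h⟩ := (mem_range_jLoc _ _ _).1 hy
  have hs' : res L A s ∉ ptI hx hg := hs
  have h0 : (res L A s).1 ≠ 0 := fun h0 => hs' (by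
    rw [show res L A s = 0 from Subtype.ext h0]
    exact zero_mem _)
  exact ⟨_, mul_mem (alpha_mem _ _ _ (res L A a)) (inv_alpha_mem _ _ _ hs'), toP V a.1, toP V s.1,
    h0, h, inv_mul_cancel_right₀ (iT_ne_zero h0) _⟩

theorem Res.hom {y : F2 V} {y₀ : KT V} (h : Res y y₀) {k q : ℕ} {P Q : PP V}
    (hP : P ∈ hom V (k + q)) (hQ : Q ∈ hom V q) (h0 : Q ≠ 0) (e : y * i2 V Q = i2 V P) :
    ∃ r, y₀ = iT V (C r) * iT V Polynomial.X ^ k := by
  obtain ⟨a, s, hs, h1, h2⟩ := h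
  have hQ0 : toP V Q ≠ 0 := (map_ne_zero_iff _ (toP V).injective).2 h0
  obtain ⟨Q', hQ', hd⟩ := exists_eq_pow_rootMultiplicity_mul_and_not_dvd (toP V Q) hQ0 0
  set n := rootMultiplicity 0 (toP V Q)
  rw [C_0, sub_zero] at hQ' hd
  have e1 : toP V P * s = a * toP V Q := i0_injective (by
    rw [map_mul, map_mul, ← h1]
    change i2 V P * _ = _ * i2 V Q
    rw [← e]
    ring)
  have e2 : Polynomial.X ^ n ∣ toP V P * s := ⟨a * Q', by rw [e1, hQ']; ring⟩
  obtain ⟨P', hP'⟩ := prime_X.pow_dvd_of_dvd_mul_right n (by rwa [X_dvd_iff]) e2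
  have e3 : P' * s = a * Q' := by
    refine mul_left_cancel₀ (pow_ne_zero n X_ne_zero) ?_
    rw [← mul_assoc, ← hP', e1, hQ']
    ring
  have c1 := coeff_hom hP n
  have c2 := coeff_hom hQ n
  have c0 : ∀ f : Polynomial (Polynomial V.K), (Polynomial.X ^ n * f).coeff n = f.coeff 0 :=
    fun f => by simpa using coeff_X_pow_mul f n 0
  rw [hP', c0] at c1
  rw [hQ', c0] at c2
  rw [X_dvd_iff] at hd
  have c3 : cf Q (q - n) n ≠ 0 := fun h => hd (by rw [c2, h, monomial_zero_right])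
  have c4 : q - n + n = q := by_contra fun h => c3 (hQ _ _ h)
  have e4 := congrArg (fun f => iT V (f.coeff 0)) e3
  simp only [mul_coeff_zero, map_mul, ← h2, c1, c2, iT_monomial'] at e4
  refine ⟨cf P (k + q - n) n / cf Q (q - n) n, ?_⟩
  have c5 : iT V (C (cf P (k + q - n) n)) =
      iT V (C (cf P (k + q - n) n / cf Q (q - n) n)) * iT V (C (cf Q (q - n) n)) := by
    rw [← map_mul, ← C_mul, div_mul_cancel₀ _ c3]
  rw [c5, show k + q - n = k + (q - n) by omega, pow_add] at e4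
  refine mul_right_cancel₀ (mul_ne_zero (iT_ne_zero hs) (mul_ne_zero
    (iT_ne_zero (C_ne_zero.2 c3)) (pow_ne_zero (q - n) iT_X_ne_zero))) ?_
  rw [show k + q - n = k + (q - n) by omega]
  linear_combination -e4

/-- the images of the homogeneous polynomials -/
def homF (V : Q.Var) (k : ℕ) : Submodule ℂ (F2 V) := (hom V k).map (i2 V).toLinearMap

theorem homF_graded : SetLike.GradedMonoid (homF V) where
  one_mem := ⟨1, hom_graded.one_mem, map_one (i2 V)⟩
  mul_mem := by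
    rintro i j _ _ ⟨f, hf, rfl⟩ ⟨g, hg, rfl⟩
    exact ⟨f * g, hom_graded.mul_mem hf hg, map_mul (i2 V) f g⟩

theorem euler_mem (D : Derivation ℂ (F2 V) (F2 V)) (h0 : ∀ c, ∃ c', D (jK V c) = jK V c')
    (h1 : ∃ e, D (T1 V) = jK V e * T1 V) (h2 : ∃ e, D (T2 V) = jK V e * T2 V) {k : ℕ} {f : PP V}
    (hf : f ∈ hom V k) : D (i2 V f) ∈ homF V k := by
  refine mem_of_mo (D.toLinearMap.comp (i2 V).toLinearMap) (homF V k) (f := f) fun a b hab => ?_
  have hk : a + b = k := by_contra fun h => hab (hf a b h)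
  obtain ⟨c', hc⟩ := h0 (cf f a b)
  obtain ⟨e1, h1⟩ := h1
  obtain ⟨e2, h2⟩ := h2
  have hp : ∀ (T : F2 V) (e : V.K) (m : ℕ), D T = jK V e * T → D (T ^ m) = jK V (m * e) * T ^ m := by
    intro T e m h
    induction m with
    | zero => simp
    | succ m ih =>
      rw [pow_succ, Derivation.leibniz, ih, h]
      simp only [smul_eq_mul, map_mul, map_add, Nat.cast_succ, map_one]
      ring
  refine ⟨mo a b (c' + (a * e1 + b * e2) * cf f a b), hk ▸ mo_mem_hom _ _ _, ?_⟩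
  change i2 V (mo a b _) = D (i2 V (mo a b (cf f a b)))
  rw [i2_mo, i2_mo, Derivation.leibniz, Derivation.leibniz, hp _ _ _ h1, hp _ _ _ h2, hc]
  simp only [smul_eq_mul, map_mul, map_add]
  ring

theorem det_row0 {F : Type*} [CommRing F] {n : ℕ} (M : Matrix (Fin (n + 1)) (Fin (n + 1)) F)
    (h : ∀ j : Fin n, M 0 j.succ = 0) : M.det = M 0 0 * (M.submatrix Fin.succ Fin.succ).det := by
  rw [Matrix.det_succ_row_zero, Fin.sum_univ_succ]
  simp [h]

section Value

variable {g g' : V.K} {n : ℕ} {w : Fin n → V.Der} {W' : Fin (n + 1) → Derivation ℂ (KT V) (KT V)}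
  {W : Fin (n + 1 + 1) → Derivation ℂ (F2 V) (F2 V)}

theorem det_coords (h : Ext2 g' W' W) (h' : Ext g w W') (g₀ g₀' : V.K) (t : Fin n → V.K) :
    (Matrix.of fun i l => W i (coords2 g₀' (coords g₀ t) l)).det =
      jK V (g₀' / g' * (g₀ / g * (Matrix.of fun i j => w j (t i)).det)) := by
  have e1 : (Matrix.of fun i l => W' i (coords g₀ t l)).det =
      iT V (C (g₀ / g * (Matrix.of fun i j => w j (t i)).det)) := by
    rw [det_row0 _ fun j => h'.zero_C (t j), C_mul, map_mul, ← Matrix.det_transpose]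
    congr 1
    · change W' 0 (tau g₀) = _
      rw [tau_eq, Derivation.leibniz, h'.zero_C, h'.zero_X, smul_zero, add_zero, smul_eq_mul,
        ← map_mul, ← C_mul, div_eq_mul_inv]
    · refine Eq.trans ?_ (RingHom.map_det ((iT V : Polynomial V.K →+* KT V).comp C) _).symm
      congr 1
      ext i j
      exact h'.succ_C j (t i)
  rw [det_row0 _ fun j => h.zero_j (coords g₀ t j), map_mul]
  congr 1
  · exact h.zero_tau g₀'
  · rw [jK_eq, ← e1, RingHom.map_det]
    congr 1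
    ext i j
    exact h.succ_j i (coords g₀ t j)

theorem det_hom (h : Ext2 g' W' W) (h' : Ext g w W') {z : Fin (n + 1 + 1) → PP V}
    {d : Fin (n + 1 + 1) → ℕ} (hz : ∀ k, z k ∈ hom V (d k)) :
    T2 V * T1 V * (Matrix.of fun i k => W i (i2 V (z k))).det ∈ homF V (∑ k, d k) := by
  have := homF_graded (V := V)
  let v : Fin (n + 1 + 1) → F2 V := Fin.cons (T2 V) (Fin.cons (T1 V) fun _ => 1)
  have e : T2 V * T1 V = ∏ i, v i := by simp [v, Fin.prod_univ_succ]
  rw [e, ← Matrix.det_mul_column, Matrix.det_apply]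
  refine sum_mem fun σ _ => ?_
  rw [Units.smul_def]
  refine zsmul_mem (SetLike.prod_mem_graded _ _ _ fun k _ => ?_) _
  generalize σ k = i
  have hT : T1 V = j1 V (iT V Polynomial.X) := rfl
  refine euler_mem (v i • W i) (fun c => ?_) ?_ ?_ (hz k)
  all_goals rw [Derivation.smul_apply, smul_eq_mul]
  · rw [jK_eq]
    induction i using Fin.cases with
    | zero => exact ⟨0, by rw [h.zero_j, mul_zero, map_zero]⟩
    | succ i =>
      rw [h.succ_j]
      induction i using Fin.cases with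
      | zero => exact ⟨0, by rw [h'.zero_C, map_zero, mul_zero, map_zero]⟩
      | succ i => exact ⟨w i c, by rw [h'.succ_C]; exact one_mul _⟩
  · conv => enter [1, e, 1, 2]; rw [hT]
    induction i using Fin.cases with
    | zero => exact ⟨0, by rw [h.zero_j, mul_zero, map_zero, zero_mul]⟩
    | succ i =>
      rw [h.succ_j]
      induction i using Fin.cases with
      | zero => exact ⟨g⁻¹, by rw [h'.zero_X]; exact mul_comm _ _⟩
      | succ i =>
        refine ⟨-(w i g / g), ?_⟩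
        rw [h'.succ_X, map_neg, map_neg, map_mul, neg_mul]
        exact one_mul _
  · induction i using Fin.cases with
    | zero => exact ⟨g'⁻¹, by rw [h.zero_T, map_inv₀]; exact mul_comm _ _⟩
    | succ i =>
      rw [h.succ_T]
      induction i using Fin.cases with
      | zero => exact ⟨0, by rw [h'.zero_C, map_zero, map_zero, zero_div, zero_mul, neg_zero, mul_zero]⟩
      | succ i =>
        refine ⟨-(w i g' / g'), ?_⟩
        rw [h'.succ_C, map_neg, map_div₀, neg_mul]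
        exact one_mul _

theorem det_expand (h : Ext2 g' W' W) (h' : Ext g w W') (hg : g ≠ 0) (hg' : g' ≠ 0)
    {t : Fin n → V.K} (ht : ∀ i j, w i (t j) = if i = j then 1 else 0)
    (hv : ∀ v : V.Der, v = ∑ i, v (t i) • w i) (E : Fin (n + 1 + 1) → Derivation ℂ (F2 V) (F2 V))
    (y : Fin (n + 1 + 1) → F2 V) : (Matrix.of fun i k => E i (y k)).det =
      (Matrix.of fun i l => E i (coords2 g' (coords g t) l)).det *
        (Matrix.of fun i k => W i (y k)).det := by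
  rw [← Matrix.det_mul]
  congr 1
  ext i k
  rw [Matrix.mul_apply]
  refine h.expand hg' (h'.dual hg ht) (fun v hv0 => ?_) (E i) (y k)
  ext f
  rw [der_expand hg h' ht hv v f]
  simp [hv0]

end Value

theorem mem_of_val (hL : IsAmple L) {x : V.X} {g : V.K} (hx : IsClosed {x}) (hg : GenAt L g x)
    {r : V.K} {k : ℕ} (h : iT V (C r) * iT V Polynomial.X ^ k ∈
      locF (alpha L) (alpha_injective L) (ptI hx hg)) : r / g ^ k ∈ locRing V x := by
  apply mem_locRing_of_locF hx hg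
  have h3 := mul_mem h (pow_mem (inv_tau_mem hL (liesOver_pt hx hg) hg) k)
  convert h3 using 1
  have h1 := iT_ne_zero (C_ne_zero.2 hg.1)
  have h2 := iT_X_ne_zero (V := V)
  have h4 : iT V (C r) = iT V (C (r / g ^ k)) * iT V (C g) ^ k := by
    rw [← map_pow, ← map_mul, ← C_pow, ← C_mul, div_mul_cancel₀ _ (pow_ne_zero _ hg.1)]
  rw [h4, tau_eq, inv_pow, mul_pow]
  field_simp

theorem inv_mem_of_val (hL : IsAmple L) {x : V.X} {g : V.K} (hx : IsClosed {x}) (hg : GenAt L g x)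
    {r : V.K} {k : ℕ} {u : KT V} (h : u ∈ locF (alpha L) (alpha_injective L) (ptI hx hg))
    (e : iT V (C r) * iT V Polynomial.X ^ k * u = 1) : r ≠ 0 ∧ (r / g ^ k)⁻¹ ∈ locRing V x := by
  have h0 : r ≠ 0 := by
    rintro rfl
    simp at e
  refine ⟨h0, mem_locRing_of_locF hx hg ?_⟩
  have h3 := mul_mem h (pow_mem (tau_mem_locF hL (liesOver_pt hx hg) hg) k)
  convert h3 using 1
  have h1 := iT_ne_zero (C_ne_zero.2 h0)
  have h4 : iT V (C g) ^ k = iT V (C (r / g ^ k)⁻¹) * iT V (C r) := by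
    rw [← map_pow, ← map_mul, ← C_pow, ← C_mul, inv_div, div_mul_cancel₀ _ h0]
  rw [tau_eq, mul_pow, h4]
  linear_combination -(iT V (C (r / g ^ k)⁻¹)) * e

/-- The section of `κ + (k + 1) L + A`. -/
theorem exists_section2 (hL : IsAmple L) (hA : IsAmple A) {κ : Q.Div V.X}
    (hκ : IsCanonicalDivisor κ) (k : ℕ)
    (hGen : ∀ φ : (cone2 hL hA).Pt, GCone.NV φ → GCone.Gen (k + 2) φ) {x₀ : V.X}
    (hx₀ : IsClosed ({x₀} : Set V.X)) :
    ∃ s ∈ H0 (coef (κ + (k + 1) • L + A)), GenAt (κ + (k + 1) • L + A) s x₀ := by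
  obtain ⟨ω, hω0, hω, hdiv⟩ := hκ
  have := ufd V x₀
  obtain ⟨g₀, hg₀⟩ := exists_genAt L x₀
  obtain ⟨g₀', hg₀'⟩ := exists_genAt A x₀
  obtain ⟨z, d, a, b, i, j, hz, ha, hb, hb0, hdeg, hreg, E, hE, hne, hinv⟩ :=
    GCone.gen_field (C := cone2 hL hA) (al2 L A) al2_injective al2_algebraMap
      (exists_quotient2 hL hA) (hGen (pt2 A hx₀ hg₀) (nv_pt2 hL hA hx₀ hg₀))
  obtain ⟨t₀, w₀, ht₀, hw₀, h1₀, h2₀⟩ := exists_frame_at V x₀
  obtain ⟨W₀', hW₀'⟩ := exists_ext g₀ w₀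
  obtain ⟨W₀, hW₀⟩ := exists_ext2 g₀' W₀'
  have hω₀ : ω w₀ ≠ 0 := value_frame_ne_zero hω0 hω h1₀ h2₀
  obtain ⟨y, hy⟩ : ∃ y, y = al2 L A a / al2 L A b *
    (Matrix.of fun i k => W₀ i (al2 L A (z k))).det := ⟨_, rfl⟩
  have hexp : ∀ E : Fin (V.dim + 1 + 1) → Derivation ℂ (F2 V) (F2 V),
      al2 L A a / al2 L A b * (Matrix.of fun i k => E i (al2 L A (z k))).det =
        (Matrix.of fun i l => E i (coords2 g₀' (coords g₀ t₀) l)).det * y := fun E => by
    rw [det_expand hW₀ hW₀' hg₀.1 hg₀'.1 h1₀ h2₀ E, hy, mul_left_comm]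
  have l₀ := lies_pt2 (A := A) hx₀ hg₀
  have m₀ : y ∈ loc2 (RingHom.ker (pt2 A hx₀ hg₀)) := hy ▸ hreg _ (nv_pt2 hL hA hx₀ hg₀) W₀
    fun k f hf => hW₀.regular hL hA l₀ hg₀ hg₀' hW₀' hw₀ k hf
  obtain ⟨y₀, hy₀, hres⟩ := exists_res hx₀ hg₀ m₀
  obtain ⟨r, rfl⟩ : ∃ r, y₀ = iT V (C r) * iT V Polynomial.X ^ k := by
    obtain ⟨P, hP, e⟩ := det_hom hW₀ hW₀' (z := fun k => (z k).1) hz
    have hb' : al2 L A b ≠ 0 := (map_ne_zero_iff _ al2_injective).2 hb0
    have hT : mo 1 1 (1 : V.K) ≠ 0 := fun h => by simpa [cf_mo, cf_zero] using congrArg (cf · 1 1) h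
    refine hres.hom (q := j + 2) (P := a.1 * P) (Q := b.1 * mo 1 1 1) ?_
      (hom_graded.mul_mem hb (mo_mem_hom 1 1 1))
      (mul_ne_zero (fun h => hb0 (Subtype.ext h)) hT) ?_
    · rw [show k + (j + 2) = i + ∑ k, d k by omega]
      exact hom_graded.mul_mem ha hP
    · have e' : i2 V P = T2 V * T1 V * (Matrix.of fun i k => W₀ i (al2 L A (z k))).det := e
      rw [map_mul, map_mul, i2_mo, e', hy]
      change _ * (al2 L A b * _) = al2 L A a * _
      field_simp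
      simp
  have hu : r ≠ 0 ∧ (r / g₀ ^ k)⁻¹ ∈ locRing V x₀ := by
    replace hne := (congrArg (· ≠ 0) (hexp E)).mp hne
    replace hinv := (congrArg (·⁻¹ ∈ loc2 (RingHom.ker (pt2 A hx₀ hg₀))) (hexp E)).mp hinv
    have h3 := mul_mem hinv (det_mem_subring (loc2 (RingHom.ker (pt2 A hx₀ hg₀)))
      (M := Matrix.of fun i l => E i (coords2 g₀' (coords g₀ t₀) l))
      fun i l => hE i _ (coords2_mem hL hA l₀ hg₀ hg₀' ht₀ l))
    obtain ⟨u, hu, hres'⟩ := exists_res hx₀ hg₀ h3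
    have h4 := hres.mul hres'
    rw [mul_left_comm, mul_comm y, inv_mul_cancel₀ hne, ← map_one (jK V)] at h4
    exact inv_mem_of_val hL hx₀ hg₀ hu ((h4.unique (res_jK 1)).trans (by simp))
  have hs0 : r * g₀ * g₀' / ω w₀ ≠ 0 :=
    div_ne_zero (mul_ne_zero (mul_ne_zero hu.1 hg₀.1) hg₀'.1) hω₀
  have hord : ∀ {x : V.X} {g g' : V.K}, GenAt L g x → GenAt A g' x → ∀ {u : V.K},
      GenAt (-κ) u x → ∀ {o : V.K}, r * g₀ * g₀' / ω w₀ * u = o * (g ^ (k + 1) * g') →
      ∀ y : V.X, coheight y = 1 → y ⤳ x → Scheme.ord (r * g₀ * g₀' / ω w₀) y +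
        coef (κ + (k + 1) • L + A) y = Scheme.ord o y := by
    intro x g g' hg hg' u hu o e y hy hyx
    have h1 := genAt_mul (genAt_pow hg (k + 1)) hg'
    have ho : o ≠ 0 := left_ne_zero_of_mul (e ▸ mul_ne_zero hs0 hu.1)
    have h2 := congrArg (Scheme.ord · y) e
    simp only [Scheme.ord_mul hs0 hu.1, Scheme.ord_mul ho h1.1] at h2
    have h3 := hu.2 y hy hyx
    have h4 := h1.2 y hy hyx
    rw [coef_neg] at h3
    rw [add_assoc κ, coef_add]
    linarith
  refine ⟨r * g₀ * g₀' / ω w₀, ?_, hs0, fun y hy hyx => ?_⟩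
  · rw [mem_H0]
    intro y hy _
    obtain ⟨x, hyx, hx⟩ := exists_closed y
    have := ufd V x
    obtain ⟨g, hg⟩ := exists_genAt L x
    obtain ⟨g', hg'⟩ := exists_genAt A x
    obtain ⟨t, w, ht, hw, h1, h2⟩ := exists_frame_at V x
    obtain ⟨W', hW'⟩ := exists_ext g w
    obtain ⟨W, hW⟩ := exists_ext2 g' W'
    have h3 := (congrArg (· ∈ loc2 (RingHom.ker (pt2 A hx hg))) (hexp W)).mp (hreg _
      (nv_pt2 hL hA hx hg) W fun k f hf => hW.regular hL hA (lies_pt2 hx hg) hg hg' hW' hw k hf)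
    rw [det_coords hW hW'] at h3
    obtain ⟨u, hu', hres'⟩ := exists_res hx hg h3
    rw [hres'.unique ((res_jK _).mul hres), ← mul_assoc, ← map_mul, ← C_mul] at hu'
    rw [hord hg hg' (genAt_of_frame hω0 hω hdiv ht hw h1 h2) ?_ y hy hyx]
    · exact ord_nonneg_of_locRing (locRing_le hyx (mem_of_val hL hx hg hu'))
    · have := hg.1
      have := hg'.1
      rw [exists_det hω h1₀ h2₀ w]
      field_simp
      ring
  · have h3 := mem_of_val hL hx₀ hg₀ hy₀
    rw [hord hg₀ hg₀' (genAt_of_frame hω0 hω hdiv ht₀ hw₀ h1₀ h2₀) (o := r / g₀ ^ k) ?_ y hy hyx]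
    · have h4 := ord_nonneg_of_locRing (locRing_le hyx h3)
      have h5 := ord_nonneg_of_locRing (locRing_le hyx hu.2)
      rw [← one_div, ord_div one_ne_zero (div_ne_zero hu.1 (pow_ne_zero _ hg₀.1)) y, ord_one] at h5
      omega
    · have := hg₀.1
      field_simp
      ring

/-- `K_X + mL + A` is globally generated for `m ≥ dim X + 1`, given the hub theorem. -/
theorem free2 (hub : HubFujita) (hL : IsAmple L) (hA : IsAmple A) {κ : Q.Div V.X}
    (hκ : IsCanonicalDivisor κ) {m : ℕ} (hm : V.dim + 1 ≤ m) (x : V.X) :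
    ∃ s ∈ H0 (coef (κ + m • L + A)), GenAt (κ + m • L + A) s x := by
  obtain ⟨k, rfl⟩ : ∃ k, m = k + 1 := ⟨m - 1, by omega⟩
  obtain ⟨x₀, h, hx₀⟩ := exists_closed x
  obtain ⟨s, hs, hg⟩ := exists_section2 hL hA hκ k
    (hub _ (by omega) (cone2 hL hA) (k + 2) (by omega)) hx₀
  exact ⟨s, hs, genAt_of_specializes h hg⟩

end Vale.Agent.N271
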