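import Vale.Agent.P271.Sch.Out

/-!
# The section ring of two ample divisors
-/

open AlgebraicGeometry Order Polynomial IsLocalRing

noncomputable section

namespace Vale.Agent.N271

open Vale.Agent.P271.Sch Vale.Agent.P299 Vale.Agent.P299.Q Vale.Agent.P299.G

variable {V : Q.Var}

/-- polynomials in two variables -/
def PP (V : Q.Var) : Type := Polynomial (Polynomial V.K)

instance : CommRing (PP V) := Polynomial.commRing (R := Polynomial V.K)

instance : Algebra ℂ (PP V) := Polynomial.algebraOfAlgebra (A := Polynomial V.K)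

variable (V) in
/-- the identification with the polynomials -/
def toP : PP V ≃ₐ[ℂ] Polynomial (Polynomial V.K) := AlgEquiv.refl

instance : IsDomain (PP V) := (toP V).toMulEquiv.isDomain

/-- the coefficients -/
def cf (f : PP V) (a b : ℕ) : V.K := ((toP V f).coeff b).coeff a

/-- the monomials -/
def mo (a b : ℕ) (c : V.K) : PP V := (toP V).symm (monomial b (monomial a c))

theorem toP_mo (a b : ℕ) (c : V.K) : toP V (mo a b c) = monomial b (monomial a c) := rfl

theorem cf_ext {f g : PP V} (h : ∀ a b, cf f a b = cf g a b) : f = g :=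
  (toP V).injective (Polynomial.ext fun b => Polynomial.ext fun a => h a b)

theorem cf_mo (a b : ℕ) (c : V.K) (a' b' : ℕ) :
    cf (mo a b c) a' b' = if a = a' ∧ b = b' then c else 0 := by
  unfold cf
  rw [toP_mo, coeff_monomial]
  by_cases h1 : b = b'
  · rw [if_pos h1, coeff_monomial]
    simp only [h1, and_true]
  · rw [if_neg h1, coeff_zero, if_neg fun h => h1 h.2]

theorem cf_add (f g : PP V) (a b : ℕ) : cf (f + g) a b = cf f a b + cf g a b := by
  unfold cf
  rw [map_add, coeff_add, coeff_add]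

theorem cf_zero (a b : ℕ) : cf (0 : PP V) a b = 0 := rfl

theorem cf_smul (c : ℂ) (f : PP V) (a b : ℕ) : cf (c • f) a b = c • cf f a b := rfl

theorem mo_mul (a b a' b' : ℕ) (c c' : V.K) :
    mo a b c * mo a' b' c' = mo (a + a') (b + b') (c * c') := by
  unfold mo
  rw [← map_mul, monomial_mul_monomial, monomial_mul_monomial]

theorem cf_mul (f g : PP V) (a b : ℕ) : cf (f * g) a b =
    ∑ y ∈ Finset.HasAntidiagonal.antidiagonal b, ∑ x ∈ Finset.HasAntidiagonal.antidiagonal a,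
      cf f x.1 y.1 * cf g x.2 y.2 := by
  unfold cf
  rw [map_mul, coeff_mul, finsetSum_coeff]
  exact Finset.sum_congr rfl fun y _ => coeff_mul _ _ _

theorem as_sum (f : PP V) :
    f = ∑ b ∈ (toP V f).support, ∑ a ∈ ((toP V f).coeff b).support, mo a b (cf f a b) := by
  apply (toP V).injective
  conv_lhs => rw [(toP V f).as_sum_support]
  rw [map_sum]
  refine Finset.sum_congr rfl fun b _ => ?_
  conv_lhs => rw [((toP V f).coeff b).as_sum_support, map_sum]
  rw [map_sum]
  rfl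

theorem mem_of_mo {F S Φ : Type*} [AddCommMonoid F] [SetLike S F] [AddSubmonoidClass S F]
    [FunLike Φ (PP V) F] [AddMonoidHomClass Φ (PP V) F] (φ : Φ) (s : S) {f : PP V}
    (h : ∀ a b, cf f a b ≠ 0 → φ (mo a b (cf f a b)) ∈ s) : φ f ∈ s := by
  rw [as_sum f, map_sum]
  refine sum_mem fun b _ => ?_
  rw [map_sum]
  exact sum_mem fun a ha => h a b (mem_support_iff.1 ha)

variable (V) in
/-- the homogeneous polynomials -/
def hom (k : ℕ) : Submodule ℂ (PP V) where
  carrier := {f | ∀ a b, a + b ≠ k → cf f a b = 0}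
  add_mem' := fun hf hg a b h => by rw [cf_add, hf a b h, hg a b h, add_zero]
  zero_mem' := fun _ _ _ => rfl
  smul_mem' := fun c f hf a b h => by rw [cf_smul, hf a b h, smul_zero]

theorem mo_mem_hom (a b : ℕ) (c : V.K) : mo a b c ∈ hom V (a + b) := fun a' b' h => by
  rw [cf_mo, if_neg]
  rintro ⟨rfl, rfl⟩
  exact h rfl

theorem hom_graded : SetLike.GradedMonoid (hom V) where
  one_mem := mo_mem_hom 0 0 1
  mul_mem := by
    intro i j f g hf hg a b h
    rw [cf_mul]
    refine Finset.sum_eq_zero fun y hy => Finset.sum_eq_zero fun x hx => ?_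
    rw [Finset.HasAntidiagonal.mem_antidiagonal] at hx hy
    by_cases h1 : x.1 + y.1 = i
    · rw [hg x.2 y.2 fun h2 => h (by change _ = i + j; omega), mul_zero]
    · rw [hf _ _ h1, zero_mul]

theorem coeff_hom {k : ℕ} {f : PP V} (hf : f ∈ hom V k) (e : ℕ) :
    (toP V f).coeff e = monomial (k - e) (cf f (k - e) e) := by
  ext a
  rw [coeff_monomial]
  split_ifs with h
  · rw [← h]
    rfl
  · exact hf a e fun h2 => h (by omega)

variable (L A : Q.Div V.X)

/-- The section ring `⨁ H⁰(V, aL + bA)`. -/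
def R2 : Subalgebra ℂ (PP V) where
  carrier := {f | ∀ a b, cf f a b ∈ H0 (coef (a • L + b • A))}
  mul_mem' := by
    intro f g hf hg a b
    rw [cf_mul]
    refine Submodule.sum_mem _ fun y hy => Submodule.sum_mem _ fun x hx => ?_
    rw [Finset.HasAntidiagonal.mem_antidiagonal] at hx hy
    have h := H0_mul (hf x.1 y.1) (hg x.2 y.2)
    rwa [add_add_add_comm, ← add_smul, ← add_smul, hx, hy] at h
  add_mem' := fun hf hg a b => by
    rw [cf_add]
    exact Submodule.add_mem _ (hf a b) (hg a b)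
  algebraMap_mem' := by
    intro c a b
    have e : algebraMap ℂ (PP V) c = mo 0 0 (algebraMap ℂ V.K c) := rfl
    rw [e, cf_mo]
    split_ifs with h
    · rw [← h.1, ← h.2, zero_smul, zero_smul, add_zero, Algebra.algebraMap_eq_smul_one]
      exact Submodule.smul_mem _ _ one_mem_H0_zero
    · exact Submodule.zero_mem _

variable {L A}

theorem mo_mem {a b : ℕ} {c : V.K} (h : c ∈ H0 (coef (a • L + b • A))) : mo a b c ∈ R2 L A := by
  intro a' b'
  rw [cf_mo]
  split_ifs with h1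
  · rwa [← h1.1, ← h1.2]
  · exact Submodule.zero_mem _

/-- the homogeneous element `c T₁^a T₂^b` -/
def mono2 {a b : ℕ} {c : V.K} (h : c ∈ H0 (coef (a • L + b • A))) : R2 L A := ⟨mo a b c, mo_mem h⟩

theorem secL {m : ℕ} {u : V.K} (h : u ∈ H0 (coef (m • L))) : u ∈ H0 (coef (m • L + 0 • A)) := by
  rwa [zero_smul, add_zero]

theorem secA {m : ℕ} {u : V.K} (h : u ∈ H0 (coef (m • A))) : u ∈ H0 (coef (0 • L + m • A)) := by
  rwa [zero_smul, zero_add]

theorem R2_sum (f : R2 L A) :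
    f = ∑ b ∈ (toP V f.1).support, ∑ a ∈ ((toP V f.1).coeff b).support, mono2 (f.2 a b) := by
  apply Subtype.ext
  rw [AddSubmonoidClass.coe_finsetSum]
  simp only [AddSubmonoidClass.coe_finsetSum]
  exact as_sum f.1

variable (L A) in
/-- the grading by the total degree -/
def grade2 (k : ℕ) : Submodule ℂ (R2 L A) := (hom V k).comap (R2 L A).val.toLinearMap

theorem mono2_mem {a b : ℕ} {c : V.K} (h : c ∈ H0 (coef (a • L + b • A))) :
    mono2 h ∈ grade2 L A (a + b) := mo_mem_hom a b c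

variable (V) in
/-- the polynomials without terms of degree `k` -/
def cohom (k : ℕ) : Submodule ℂ (PP V) where
  carrier := {f | ∀ a b, a + b = k → cf f a b = 0}
  add_mem' := fun hf hg a b h => by rw [cf_add, hf a b h, hg a b h, add_zero]
  zero_mem' := fun _ _ _ => rfl
  smul_mem' := fun c f hf a b h => by rw [cf_smul, hf a b h, smul_zero]

theorem isInternal2 : DirectSum.IsInternal (grade2 L A) := by
  refine DirectSum.isInternal_submodule_of_iSupIndep_of_iSup_eq_top (iSupIndep_def.2 fun i => ?_)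
    (eq_top_iff.2 fun f _ => ?_)
  · refine Disjoint.mono_right (c := (cohom V i).comap (R2 L A).val.toLinearMap)
      (iSup₂_le fun j hj f hf a b h => hf a b (h ▸ hj.symm))
      (Submodule.disjoint_def.2 fun f h1 h2 => Subtype.ext (cf_ext fun a b => ?_))
    by_cases h : a + b = i
    · exact h2 a b h
    · exact h1 a b h
  · rw [R2_sum f]
    exact sum_mem fun b _ => sum_mem fun a _ => Submodule.mem_iSup_of_mem _ (mono2_mem _)

/-- the graded algebra -/
@[reducible] def graded2 : GradedAlgebra (grade2 L A) where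
  one_mem := hom_graded.one_mem
  mul_mem := fun _ _ _ _ hf hg => hom_graded.mul_mem hf hg
  toDecomposition := isInternal2.chooseDecomposition

theorem grade2_zero (f : R2 L A) (hf : f ∈ grade2 L A 0) :
    ∃ c : ℂ, algebraMap ℂ (R2 L A) c = f := by
  have h := f.2 0 0
  rw [zero_smul, zero_smul, add_zero, mem_H0] at h
  obtain ⟨c, hc⟩ := exists_constant_of_ord_nonneg V (ufd V) (cf f.1 0 0) (fun x hx => by
    by_cases h0 : cf f.1 0 0 = 0
    · rw [h0]; simp
    · simpa using h x hx h0)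
  refine ⟨c, Subtype.ext (cf_ext fun a b => ?_)⟩
  have e : (algebraMap ℂ (R2 L A) c).1 = mo 0 0 (algebraMap ℂ V.K c) := rfl
  rw [e, cf_mo]
  split_ifs with h1
  · rw [← h1.1, ← h1.2, hc]
  · exact (hf a b (by omega)).symm

/-- The field `K(V)(T₁)(T₂)`. -/
abbrev F2 (V : Q.Var) : Type := FractionRing (Polynomial (KT V))

variable (V) in
/-- the embedding of `K(V)(T₁)` -/
def j1 : KT V →+* F2 V := (algebraMap (Polynomial (KT V)) (F2 V)).comp C

variable (V) in
/-- the embedding of `K(V)` -/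
def jK : V.K →+* F2 V := (j1 V).comp ((iT V : Polynomial V.K →+* KT V).comp C)

variable (V) in
/-- the first variable -/
def T1 : F2 V := j1 V (iT V Polynomial.X)

variable (V) in
/-- the second variable -/
def T2 : F2 V := algebraMap (Polynomial (KT V)) (F2 V) Polynomial.X

variable (V) in
/-- the embedding of the polynomials -/
def i0 : Polynomial (Polynomial V.K) →ₐ[ℂ] F2 V :=
  (IsScalarTower.toAlgHom ℂ (Polynomial (KT V)) (F2 V)).comp (Polynomial.mapAlgHom (iT V))

variable (V) in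
/-- the embedding of the polynomials -/
def i2 : PP V →ₐ[ℂ] F2 V := (i0 V).comp (toP V : PP V →ₐ[ℂ] Polynomial (Polynomial V.K))

theorem i0_apply (f : Polynomial (Polynomial V.K)) : i0 V f =
    algebraMap (Polynomial (KT V)) (F2 V) (f.map (iT V : Polynomial V.K →+* KT V)) := rfl

theorem i0_injective : Function.Injective (i0 V) :=
  (IsFractionRing.injective (Polynomial (KT V)) (F2 V)).comp
    (Polynomial.map_injective (iT V : Polynomial V.K →+* KT V) (iT_injective V))

theorem i2_injective : Function.Injective (i2 V) := i0_injective.comp (toP V).injective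

theorem i0_C (f : Polynomial V.K) : i0 V (C f) = j1 V (iT V f) := by
  rw [i0_apply, map_C]
  rfl

theorem i0_X : i0 V Polynomial.X = T2 V := by
  rw [i0_apply, map_X]
  rfl

theorem i0_mono (a b : ℕ) (c : V.K) :
    i0 V (monomial b (monomial a c)) = jK V c * T1 V ^ a * T2 V ^ b := by
  rw [← C_mul_X_pow_eq_monomial, map_mul, map_pow, i0_C, iT_monomial', map_mul, map_pow, i0_X]
  rfl

theorem i2_mo (a b : ℕ) (c : V.K) : i2 V (mo a b c) = jK V c * T1 V ^ a * T2 V ^ b :=
  i0_mono a b c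

theorem T1_ne_zero : T1 V ≠ 0 := (_root_.map_ne_zero (j1 V)).2 iT_X_ne_zero

theorem T2_ne_zero : T2 V ≠ 0 :=
  (map_ne_zero_iff _ (IsFractionRing.injective (Polynomial (KT V)) (F2 V))).2 X_ne_zero

variable (L A) in
/-- the embedding of the section ring -/
def al2 : R2 L A →+* F2 V := ((i2 V).comp (R2 L A).val : R2 L A →ₐ[ℂ] F2 V)

theorem al2_injective : Function.Injective (al2 L A) := fun _ _ h => Subtype.ext (i2_injective h)

theorem al2_algebraMap (c : ℂ) : al2 L A (algebraMap ℂ (R2 L A) c) = algebraMap ℂ (F2 V) c :=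
  ((i2 V).comp (R2 L A).val).commutes c

theorem al2_mono {a b : ℕ} {c : V.K} (h : c ∈ H0 (coef (a • L + b • A))) :
    al2 L A (mono2 h) = jK V c * T1 V ^ a * T2 V ^ b := i2_mo a b c

theorem C_mem (f : secRing L) : (toP V).symm (C f.1) ∈ R2 L A := by
  intro a b
  unfold cf
  rw [AlgEquiv.apply_symm_apply, coeff_C]
  split_ifs with h
  · rw [h]
    exact secL (f.2 a)
  · exact Submodule.zero_mem _

theorem map_mem (f : secRing A) : (toP V).symm (f.1.map C) ∈ R2 L A := by
  intro a b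
  unfold cf
  rw [AlgEquiv.apply_symm_apply, coeff_map, coeff_C]
  split_ifs with h
  · rw [h]
    exact secA (f.2 b)
  · exact Submodule.zero_mem _

theorem two_sections (hA : IsAmple A) (x : V.X) : ∃ (m : ℕ) (u u' : V.K), u ∈ H0 (coef (m • A)) ∧
    u' ∈ H0 (coef ((m + 1) • A)) ∧ GenAt (m • A) u x ∧ GenAt ((m + 1) • A) u' x := by
  obtain ⟨m₀, hm₀⟩ := hA.forall_add (ufd V) 0
  have hex : ∀ m ≥ m₀, ∃ u ∈ H0 (coef (m • A)), GenAt (m • A) u x := by
    intro m hm
    have := (hm₀ m hm).2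
    rw [add_zero] at this
    exact this x
  obtain ⟨u₁, hu₁, hu₁x⟩ := hex m₀ le_rfl
  obtain ⟨u₂, hu₂, hu₂x⟩ := hex (m₀ + 1) (Nat.le_succ _)
  exact ⟨m₀, u₁, u₂, hu₁, hu₂, hu₁x, hu₂x⟩

theorem gen_top (hL : IsAmple L) (hA : IsAmple A) (S : Subfield (F2 V))
    (h1 : ∀ f : secRing L, i0 V (C f.1) ∈ S) (h2 : ∀ f : secRing A, i0 V (f.1.map C) ∈ S) :
    S = ⊤ := by
  have k1 : ∀ z, j1 V z ∈ S := by
    intro z
    obtain ⟨a, s, hs, h⟩ := exists_quotient hL z
    have hs' : alpha L s ≠ 0 := (map_ne_zero_iff _ (alpha_injective L)).2 hs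
    rw [eq_div_of_mul_eq hs' h, map_div₀, alpha_apply, alpha_apply, ← i0_C, ← i0_C]
    exact S.div_mem (h1 a) (h1 s)
  have k2 : ∀ (m : ℕ) (u : V.K), u ∈ H0 (coef (m • A)) → u ≠ 0 → T2 V ^ m ∈ S := by
    intro m u hu h0
    have h3 := h2 (mono A hu)
    have e : (mono A hu).1.map C = monomial m (monomial 0 u) := map_monomial _
    rw [e, i0_mono, pow_zero, mul_one] at h3
    have h4 := S.mul_mem (S.inv_mem (k1 (iT V (C u)))) h3
    rwa [show j1 V (iT V (C u)) = jK V u from rfl, inv_mul_cancel_left₀ ((_root_.map_ne_zero _).2 h0)]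
      at h4
  obtain ⟨m, u, u', hu, hu', g1, g2⟩ := two_sections hA (genericPoint V.X)
  have k3 : T2 V ∈ S := by
    have h3 := S.div_mem (k2 _ _ hu' g2.1) (k2 _ _ hu g1.1)
    rwa [pow_succ', mul_div_cancel_right₀ _ (pow_ne_zero _ T2_ne_zero)] at h3
  have k4 : ∀ p : Polynomial (KT V), algebraMap _ (F2 V) p ∈ S := by
    intro p
    induction p using Polynomial.induction_on' with
    | add p q hp hq =>
      rw [map_add]
      exact S.add_mem hp hq
    | monomial n a =>
      rw [← C_mul_X_pow_eq_monomial, map_mul, map_pow]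
      exact S.mul_mem (k1 a) (S.pow_mem k3 n)
  rw [eq_top_iff]
  intro a _
  obtain ⟨p, q, -, rfl⟩ := IsFractionRing.div_surjective (A := Polynomial (KT V)) a
  exact S.div_mem (k4 p) (k4 q)

theorem genAt_mul {D D' : Q.Div V.X} {s s' : V.K} {x : V.X} (h : GenAt D s x) (h' : GenAt D' s' x) :
    GenAt (D + D') (s * s') x := by
  refine ⟨mul_ne_zero h.1 h'.1, fun y hy hyx => ?_⟩
  rw [Scheme.ord_mul h.1 h'.1, coef_add]
  have h1 := h.2 y hy hyx
  have h2 := h'.2 y hy hyx
  linarith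

theorem genAt_pow {D : Q.Div V.X} {s : V.K} {x : V.X} (h : GenAt D s x) (m : ℕ) :
    GenAt (m • D) (s ^ m) x := by
  refine ⟨pow_ne_zero _ h.1, fun y hy hyx => ?_⟩
  rw [ord_pow h.1, coef_nsmul, ← mul_add, h.2 y hy hyx, mul_zero]

theorem key_pow {a b m m' : ℕ} {c u u' : V.K} {x : V.X} (hc : c ∈ H0 (coef (a • L + b • A)))
    (hu : GenAt (m • L) u x) (hu' : GenAt (m' • A) u' x) : ∃ o ∈ locRing V x,
    (jK V c * T1 V ^ a * T2 V ^ b) ^ (m * m') =
      jK V o * (jK V u * T1 V ^ m * T2 V ^ 0) ^ (a * m') *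
        (jK V u' * T1 V ^ 0 * T2 V ^ m') ^ (b * m) := by
  have h1 := genAt_mul (genAt_pow hu (a * m')) (genAt_pow hu' (b * m))
  have e : (a * m') • m • L + (b * m) • m' • A = (m * m') • (a • L + b • A) := by
    rw [smul_add, smul_smul, smul_smul, smul_smul, smul_smul]
    congr 2 <;> ring
  rw [e] at h1
  refine ⟨_, pow_div_mem (L := a • L + b • A) (m := 1) (by rwa [one_smul]) h1, ?_⟩
  have h2 : jK V u ≠ 0 := (_root_.map_ne_zero _).2 hu.1
  have h3 : jK V u' ≠ 0 := (_root_.map_ne_zero _).2 hu'.1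
  simp only [map_div₀, map_mul, map_pow, pow_one, pow_zero, mul_one, mul_pow, ← pow_mul]
  field_simp
  ring

theorem exists_gen (hL : IsAmple L) (x : V.X) :
    ∃ m : ℕ, 0 < m ∧ ∃ u ∈ H0 (coef (m • L)), GenAt (m • L) u x := by
  obtain ⟨m, hm, s, hs, U, -, hxU, hU⟩ := hL x
  exact ⟨m, hm, s, hs, (hU x).1 hxU⟩

theorem center (W : ValuationSubring (F2 V)) (hW : ∀ c : ℂ, algebraMap ℂ (F2 V) c ∈ W) :
    ∃ x : V.X, ∀ o ∈ locRing V x, jK V o ∈ W := by
  obtain ⟨x, hx⟩ := exists_center V (W.comap (jK V)) hW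
  exact ⟨x, by
    rintro _ ⟨a, rfl⟩
    exact hx a⟩

theorem R2_finiteType (hL : IsAmple L) (hA : IsAmple A) : Algebra.FiniteType ℂ (R2 L A) := by
  let φ : secRing L →ₐ[ℂ] F2 V := ((i0 V).comp CAlgHom).comp (secRing L).val
  let ψ : secRing A →ₐ[ℂ] F2 V := ((i0 V).comp (mapAlgHom CAlgHom)).comp (secRing A).val
  have hφ : φ.range.FG := by
    rw [← Algebra.map_top]
    exact (secRing_finiteType hL).out.map φ
  have hψ : ψ.range.FG := by
    rw [← Algebra.map_top]
    exact (secRing_finiteType hA).out.map ψ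
  have m1 : ∀ f : secRing L, i0 V (C f.1) ∈ φ.range ⊔ ψ.range := fun f =>
    (le_sup_left : φ.range ≤ _) ⟨f, rfl⟩
  have m2 : ∀ f : secRing A, i0 V (f.1.map C) ∈ φ.range ⊔ ψ.range := fun f =>
    (le_sup_right : ψ.range ≤ _) ⟨f, rfl⟩
  refine (Subalgebra.fg_iff_finiteType _).1 (Subalgebra.fg_of_fg_map _ (i2 V) i2_injective
    (fg_of_valuation _ _ (hφ.sup hψ) (sup_le ?_ ?_) (fun S _ h => gen_top hL hA S
      (fun f => h _ (m1 f)) fun f => h _ (m2 f)) ?_))
  · rintro _ ⟨f, rfl⟩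
    exact ⟨_, C_mem f, rfl⟩
  · rintro _ ⟨f, rfl⟩
    exact ⟨_, map_mem f, rfl⟩
  · rintro _ ⟨f, hf, rfl⟩ W hW
    obtain ⟨x, hx⟩ := center W fun c => hW _ (Subalgebra.algebraMap_mem _ c)
    obtain ⟨m, hm, u, hu, hux⟩ := exists_gen hL x
    obtain ⟨m', hm', u', hu', hux'⟩ := exists_gen hA x
    refine mem_of_mo (i2 V) W.toSubring fun a b _ => mem_of_pow_mem W (Nat.mul_pos hm hm') ?_
    obtain ⟨o, ho, e⟩ := key_pow (hf a b) hux hux'
    have h1 := hW _ (m1 (mono L hu))
    have h2 := hW _ (m2 (mono A hu'))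
    rw [show C (mono L hu).1 = monomial 0 (monomial m u) from rfl, i0_mono] at h1
    rw [show (mono A hu').1.map C = monomial m' (monomial 0 u') from map_monomial _, i0_mono] at h2
    rw [i2_mo, e]
    exact mul_mem (mul_mem (hx o ho) (pow_mem h1 _)) (pow_mem h2 _)

/-- the prime ideal `p` lies over `x` and is not in the zero section -/
def Lies (p : Ideal (R2 L A)) (x : V.X) : Prop :=
  (∀ (m : ℕ) (u : V.K) (hu : u ∈ H0 (coef (m • L))), GenAt (m • L) u x → mono2 (secL hu) ∉ p) ∨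
    ∀ (m : ℕ) (u : V.K) (hu : u ∈ H0 (coef (m • A))), GenAt (m • A) u x → mono2 (secA hu) ∉ p

theorem val_key {Γ : Type*} [LinearOrderedCommMonoidWithZero Γ] {o s t : Γ} (h : 1 = o * s * t)
    (ho : o ≤ 1) (hs : s ≤ 1) (ht : t ≤ 1) : 1 ≤ s ∧ 1 ≤ t :=
  ⟨h.le.trans ((mul_le_of_le_one_right' ht).trans (mul_le_of_le_one_left' ho)),
    h.le.trans (mul_le_of_le_one_left' (mul_le_one' ho hs))⟩

theorem lies_key {W : ValuationSubring (F2 V)} (hW : ∀ r, al2 L A r ∈ W) {x : V.X}
    (hx : ∀ o ∈ locRing V x, jK V o ∈ W) {a b : ℕ} {c : V.K} (hc : c ∈ H0 (coef (a • L + b • A)))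
    (h1 : W.valuation (al2 L A (mono2 hc)) = 1) {m m' : ℕ} {u u' : V.K}
    (hu : u ∈ H0 (coef (m • L))) (hu' : u' ∈ H0 (coef (m' • A))) (g1 : GenAt (m • L) u x)
    (g2 : GenAt (m' • A) u' x) : 1 ≤ W.valuation (al2 L A (mono2 (secL hu))) ^ (a * m') ∧
      1 ≤ W.valuation (al2 L A (mono2 (secA hu'))) ^ (b * m) := by
  obtain ⟨o, ho, e⟩ := key_pow hc g1 g2
  rw [← al2_mono hc, ← al2_mono (secL hu), ← al2_mono (secA hu')] at e
  have h3 := congrArg W.valuation e
  rw [map_pow, map_mul, map_mul, map_pow, map_pow, h1, one_pow] at h3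
  exact val_key h3 ((W.valuation_le_one_iff _).2 (hx o ho))
    (pow_le_one' ((W.valuation_le_one_iff _).2 (hW _)) _)
    (pow_le_one' ((W.valuation_le_one_iff _).2 (hW _)) _)

theorem exists_mono_notMem {p : Ideal (R2 L A)} {k : ℕ} {s : R2 L A} (hsk : s ∈ grade2 L A k)
    (hsp : s ∉ p) : ∃ a b, a + b = k ∧ mono2 (s.2 a b) ∉ p := by
  by_contra h
  refine hsp ?_
  rw [R2_sum s]
  refine sum_mem fun b _ => sum_mem fun a ha => ?_
  by_contra h1
  exact h ⟨a, b, by_contra fun h2 => mem_support_iff.1 ha (hsk a b h2), h1⟩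

theorem exists_lies (hL : IsAmple L) (hA : IsAmple A) (p : Ideal (R2 L A)) (hp : p.IsMaximal)
    (hs : ∃ k > 0, ∃ s ∈ grade2 L A k, s ∉ p) : ∃ x : V.X, Lies p x := by
  obtain ⟨k, hk, s, hsk, hsp⟩ := hs
  obtain ⟨W, hW1, hW2, hW3⟩ := exists_valuation (al2 L A) p hp al2_injective
  obtain ⟨x, hx⟩ := center W fun c => al2_algebraMap (L := L) (A := A) c ▸ hW1 _
  obtain ⟨a, b, hab, hc⟩ := exists_mono_notMem hsk hsp
  refine ⟨x, ?_⟩
  rcases Nat.eq_zero_or_pos a with h0 | h0
  · obtain ⟨m, hm, u, hu, hux⟩ := exists_gen hL x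
    exact Or.inr fun m' u' hu' g hmem => absurd (lies_key hW1 hx _ (hW3 _ hc) hu hu' hux g).2
      (not_le.2 (pow_lt_one' (hW2 _ hmem) (Nat.mul_pos (by omega) hm).ne'))
  · obtain ⟨m', hm', u', hu', hux'⟩ := exists_gen hA x
    exact Or.inl fun m u hu g hmem => absurd (lies_key hW1 hx _ (hW3 _ hc) hu hu' g hux').1
      (not_le.2 (pow_lt_one' (hW2 _ hmem) (Nat.mul_pos h0 hm').ne'))

theorem Lies.free (hL : IsAmple L) (hA : IsAmple A) {p : Ideal (R2 L A)} {x : V.X} (h : Lies p x) :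
    ∃ k, ∃ s ∈ grade2 L A k, ∃ s' ∈ grade2 L A (k + 1), s ∉ p ∧ s' ∉ p := by
  rcases h with h | h
  · obtain ⟨m, u, u', hu, hu', g1, g2⟩ := two_sections hL x
    exact ⟨m, _, mono2_mem (secL hu), _, mono2_mem (secL hu'), h _ _ hu g1, h _ _ hu' g2⟩
  · obtain ⟨m, u, u', hu, hu', g1, g2⟩ := two_sections hA x
    exact ⟨0 + m, _, mono2_mem (secA hu), _, mono2_mem (secA hu'), h _ _ hu g1, h _ _ hu' g2⟩

end Vale.Agent.N271
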